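import Vale.Agent.P065.UB.H616.Star
import Vale.Agent.P065.UB.H759.PJ
import Vale.Agent.P065.UB.Rank
import Vale.Agent.P065.U.H792.Front
import Vale.Agent.P065.UB.P.Defs

/-!
# P065, upper bound, line P: (STAR) for the structure `PJ` (helper155)

No lower bound for the number of touched points is needed.
-/

set_option autoImplicit false

namespace Vale.Agent.P065.UB.H155

open Finset Vale.Agent.P065.UB Vale.Agent.P065.UB.H616 Vale.Agent.P065.UB.H759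
  Vale.Agent.P065.UB.P

/-- (STAR), one window, with bounds for the number of touched points and boundary edges -/
theorem star_one : ∃ C : ℝ, 1 ≤ C ∧ ∀ (P : Finset Pt) (k : ℕ)
    (Q : Finset Pt) (I : Set ℝ), Good P → Q ⊆ P → I.OrdConnected →
    ∀ M : ℝ, (#(Tch P k Q I) : ℝ) ≤ M → (#(EdBd P k Q I) : ℝ) ≤ M →
    ∀ S : Finset (ℝ × ℝ × ℝ), #S ≤ 8 → ∀ B : Finset Pt, (∀ v, v ∈ B ↔ v ∈ Q ∧ Pol S v) →
    ∀ (X : Finset Pt) (D : ℝ), X ⊆ B → 0 ≤ D → (∀ x ∈ X, D ≤ dg P k Q I x) →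
    100 * M ≤ D * #X → (D * #X) ^ 3 ≤ C * M ^ 2 * #(Sw B I) := by
  classical
  obtain ⟨C₁, hC₁, hs⟩ := sineq stDey stRank
  obtain ⟨C, hC, dey₀⟩ := stDey
  refine ⟨64 * C₁ * (2 * C ^ (3 / 2 : ℝ) + 1089), ?_, ?_⟩
  · have : 0 ≤ C ^ (3 / 2 : ℝ) := by positivity
    nlinarith
  intro P k Q I hP hQ hI M hw hV S hS B hB X D hXB hD hdeg hthr
  have hBQ : B ⊆ Q := fun v hv => ((hB v).1 hv).1
  have hM : 0 ≤ M := (Nat.cast_nonneg _).trans hw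
  -- boundary edges of `B`
  have hVB : (#(EdBd P k B I) : ℝ) ≤ 33 * M := by
    have h1 := lov_box hP k hQ hI S (fun (s : ℝ × ℝ × ℝ) (v : Pt) => s.1 * v.1 + s.2.1 * v.2 ≤ s.2.2)
      (fun i _ => isHP_lin i.1 i.2.1 i.2.2) (B := B) (fun v => by rw [hB v]; rfl)
    have h2 : (#(EdBd P k B I) : ℝ) ≤ #(EdBd P k Q I)
      + #S * (2 * #(Tch P k Q I) + 2 * #(EdBd P k Q I)) := by exact_mod_cast h1
    have h3 : (#S : ℝ) ≤ 8 := by exact_mod_cast hS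
    have h4 : (#S : ℝ) * (2 * #(Tch P k Q I) + 2 * #(EdBd P k Q I)) ≤ 8 * (4 * M) := by
      apply mul_le_mul h3 (by linarith) (by positivity) (by norm_num)
    linarith
  -- inside edges of `B`
  have hsum : D * #X ≤ ∑ x ∈ X, (dg P k Q I x : ℝ) := by
    calc D * #X = ∑ x ∈ X, D := by rw [sum_const, nsmul_eq_mul]; ring
      _ ≤ _ := sum_le_sum fun x hx => hdeg x hx
  have hsum2 : ∑ x ∈ X, (dg P k Q I x : ℝ) ≤ 2 * #(EdIn P k B I) + #(EdBd P k B I) := by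
    exact_mod_cast sum_dg_le (P := P) (k := k) (I := I) hBQ hXB
  have hE : D * #X ≤ 4 * (#(EdIn P k B I) : ℝ) := by
    linarith
  -- the swap inequality in `B`
  have h1 := hs P k B I hP (hBQ.trans hQ) hI
  -- upper bound of `E ^ (3/2)`
  have hEE : (#(EdIn P k B I) : ℝ) ≤ #(EdIn P k Q I) := by
    have : EdIn P k B I ⊆ EdIn P k Q I := by
      intro e he
      rw [mem_EdIn] at he ⊢
      exact ⟨he.1, hBQ he.2.1, hBQ he.2.2.1, he.2.2.2⟩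
    exact_mod_cast card_le_card this
  have hdey : (#(EdIn P k B I) : ℝ) ≤ C * (2 * M ^ 2) ^ (2 / 3 : ℝ) := by
    refine hEE.trans ((dey₀ P k Q I hP hQ hI).trans ?_)
    refine mul_le_mul_of_nonneg_left (Real.rpow_le_rpow (by positivity) ?_ (by norm_num)) hC.le
    have : (#(Tch P k Q I) : ℝ) * (#(Tch P k Q I) + #(EdBd P k Q I)) ≤ M * (M + M) := by gcongr
    linarith
  have h2 : (#(EdIn P k B I) : ℝ) ^ (3 / 2 : ℝ) ≤ C ^ (3 / 2 : ℝ) * (2 * M ^ 2) := by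
    refine (Real.rpow_le_rpow (by positivity) hdey (by norm_num)).trans (le_of_eq ?_)
    rw [Real.mul_rpow hC.le (by positivity), ← Real.rpow_mul (by positivity)]
    norm_num
  have h3 : (#(EdIn P k B I) : ℝ) ^ (3 / 2 : ℝ) + (#(EdBd P k B I) : ℝ) ^ 2
      ≤ (2 * C ^ (3 / 2 : ℝ) + 1089) * M ^ 2 := by
    have h4 : (#(EdBd P k B I) : ℝ) ^ 2 ≤ (33 * M) ^ 2 :=
      pow_le_pow_left₀ (by positivity) hVB 2
    nlinarith
  have hE0 : 0 ≤ D * (#X : ℝ) := by positivity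
  calc (D * #X) ^ 3 ≤ (4 * (#(EdIn P k B I) : ℝ)) ^ 3 := pow_le_pow_left₀ hE0 hE 3
    _ = 64 * (#(EdIn P k B I) : ℝ) ^ 3 := by ring
    _ ≤ 64 * (C₁ * #(Sw B I) *
        ((#(EdIn P k B I) : ℝ) ^ (3 / 2 : ℝ) + (#(EdBd P k B I) : ℝ) ^ 2)) := by gcongr
    _ ≤ 64 * (C₁ * #(Sw B I) * ((2 * C ^ (3 / 2 : ℝ) + 1089) * M ^ 2)) := by gcongr
    _ = _ := by ring

open Classical in
/-- (STAR) summed over the windows -/
theorem starPJ : ∃ C : ℝ, 1 ≤ C ∧ ∀ (K lam N : ℝ) (P : Finset Pt) (k : ℕ) (Q : Finset Pt)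
    (W : Finset ℕ) (a b : ℕ → ℝ), 1 ≤ K → 0 < lam → 0 < N → Good P → Q ⊆ P →
    (∀ w ∈ W, ∀ w' ∈ W, w ≠ w' → b w < a w' ∨ b w' < a w) →
    (∀ w ∈ W, lam * #(Tch P k Q (Set.Icc (a w) (b w))) ≤ K * N) →
    (∀ w ∈ W, lam * #(EdBd P k Q (Set.Icc (a w) (b w))) ≤ K * N) →
    ∀ (Y : ℕ → Finset Pt) (D : ℝ), 0 < D → (∀ w ∈ W, Y w ⊆ Q) →
    (∀ w ∈ W, ∀ x ∈ Y w, D ≤ dg P k Q (Set.Icc (a w) (b w)) x) →
    ∀ S : Finset (ℝ × ℝ × ℝ), #S ≤ 8 →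
    D ^ 3 * ∑ w ∈ W with 100 * K * N ≤ lam * D * #{p ∈ Y w | Pol S p},
      (#{p ∈ Y w | Pol S p} : ℝ) ^ 3 ≤ C * (K * N / lam) ^ 2 * (#{p ∈ Q | Pol S p} : ℝ) ^ 2 := by
  obtain ⟨C, hC, h⟩ := star_one
  refine ⟨C, hC, fun K lam N P k Q W a b hK hlam hN hP hQ hdisj htch hbd Y D hD hYQ hdeg S hS => ?_⟩
  set B : Finset Pt := {p ∈ Q | Pol S p} with hB
  set I : ℕ → Set ℝ := fun w => Set.Icc (a w) (b w) with hI
  set W' : Finset ℕ := {w ∈ W | 100 * K * N ≤ lam * D * #{p ∈ Y w | Pol S p}} with hW'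
  have h1 : ∀ w ∈ W', (D * (#{p ∈ Y w | Pol S p} : ℝ)) ^ 3
      ≤ C * (K * N / lam) ^ 2 * #(Sw B (I w)) := by
    intro w hw
    rw [hW', mem_filter] at hw
    obtain ⟨hwW, hw⟩ := hw
    refine h P k Q (I w) hP hQ Set.ordConnected_Icc (K * N / lam) ?_ ?_ S hS B ?_ _ D ?_ hD.le ?_ ?_
    · rw [le_div_iff₀ hlam]; linarith [htch w hwW]
    · rw [le_div_iff₀ hlam]; linarith [hbd w hwW]
    · intro v; rw [hB, mem_filter]
    · intro v hv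
      rw [mem_filter] at hv
      rw [hB, mem_filter]
      exact ⟨hYQ w hwW hv.1, hv.2⟩
    · intro x hx
      exact hdeg w hwW x (mem_filter.1 hx).1
    · rw [← mul_div_assoc, div_le_iff₀ hlam]
      nlinarith
  have h2 : ∑ w ∈ W', (#(Sw B (I w)) : ℝ) ≤ (#B : ℝ) ^ 2 := by
    have h3 := sum_Sw_le W' I (fun w hw w' hw' hne => by
      rw [Set.disjoint_left]
      intro x hx hx'
      rcases hdisj w (mem_filter.1 hw).1 w' (mem_filter.1 hw').1 hne with h4 | h4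
      · exact absurd (hx.2.trans_lt h4) (not_lt.2 hx'.1)
      · exact absurd (hx'.2.trans_lt h4) (not_lt.2 hx.1)) B
    exact_mod_cast h3
  calc D ^ 3 * ∑ w ∈ W', (#{p ∈ Y w | Pol S p} : ℝ) ^ 3
      = ∑ w ∈ W', (D * (#{p ∈ Y w | Pol S p} : ℝ)) ^ 3 := by
        rw [mul_sum]; exact sum_congr rfl fun w _ => by ring
    _ ≤ ∑ w ∈ W', C * (K * N / lam) ^ 2 * #(Sw B (I w)) := sum_le_sum h1
    _ = C * (K * N / lam) ^ 2 * ∑ w ∈ W', (#(Sw B (I w)) : ℝ) := by rw [mul_sum]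
    _ ≤ _ := mul_le_mul_of_nonneg_left h2 (by positivity)

open Classical in
/-- the field `star` of `PJ`, from `NW3` -/
theorem pj_star (t u C0 : ℕ) : ∃ c₀ : ℕ, ∀ c : ℕ, c₀ ≤ c →
    ∀ (K k3 k4 Kp ks Kpp L lam N del : ℝ) (P : Finset Pt) (k : ℕ)
    (Q : Finset Pt) (W₀ W : Finset ℕ) (a b be : ℕ → ℝ) (T T' : ℕ → Finset Pt),
    2 ≤ K → K ^ c ≤ Kp → 0 < ks → Kp ^ c * ks ≤ 1 → 1 ≤ ks * Kpp → Kpp ^ c ≤ L → L ^ c ≤ lam →
    lam ^ 5 ≤ N → NW3 K k3 k4 Kp ks Kpp lam N del P k Q W₀ W a b be T T' →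
    ∀ Y : ℕ → Finset Pt, (∀ w ∈ W, Y w ⊆ Q) →
    (∀ w ∈ W, ∀ x ∈ Y w, (N / lam) ^ (1 / 3 : ℝ) ≤ K ^ t * dg P k Q (Set.Icc (a w) (b w)) x) →
    N ≤ K ^ u * #Q → ∀ S : Finset (ℝ × ℝ × ℝ), #S ≤ 8 →
    (∑ w ∈ W with (#Q : ℝ) ≤ L ^ C0 * lam ^ 2 * #{p ∈ Y w | Pol S p},
      (#{p ∈ Y w | Pol S p} : ℝ) ^ 3) ≤ L * (#Q / lam) * (#{p ∈ Q | Pol S p} : ℝ) ^ 2 := by
  obtain ⟨C, hC, h⟩ := starPJ
  obtain ⟨n₁, hn₁⟩ := pow_unbounded_of_one_lt C (by norm_num : (1 : ℝ) < 2)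
  refine ⟨7 + n₁ + (3 + 3 * (1 + t + u) + 3 * C0) + (2 + 3 * t + u), ?_⟩
  intro c hc K k3 k4 Kp ks Kpp L lam N del P k Q W₀ W a b be T T' hK hKKp hks0 hks1 hKpp1 hL hlam
    hN hNW Y hYQ hdeg hNQ S hS
  have hc1 : c ≠ 0 := by omega
  have hK1 : 1 ≤ K := by linarith
  have hK0 : 0 < K := by linarith
  have hKp1 : 1 ≤ Kp := (one_le_pow₀ hK1).trans hKKp
  have hKpKpp : Kp ^ c ≤ Kpp := by
    have h3 : Kp ^ c * 1 ≤ Kp ^ c * (ks * Kpp) := mul_le_mul_of_nonneg_left hKpp1 (by positivity)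
    have h4 : 1 ≤ Kp ^ c := one_le_pow₀ hKp1
    have hKpp0 : 0 ≤ Kpp := by
      by_contra hh
      rw [not_le] at hh
      nlinarith
    nlinarith
  have hKppL : K ^ c ≤ L := hKKp.trans <| (le_self_pow₀ hKp1 hc1).trans <| hKpKpp.trans <|
    (le_self_pow₀ ((one_le_pow₀ hKp1).trans hKpKpp) hc1).trans hL
  have hL1 : 1 ≤ L := (one_le_pow₀ hK1).trans hKppL
  have hL0 : 0 < L := by linarith
  have hKL : K ≤ L := (le_self_pow₀ hK1 hc1).trans hKppL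
  have hlam1 : 1 ≤ lam := (one_le_pow₀ hL1).trans hlam
  have hlam0 : 0 < lam := by linarith
  have hN1 : 1 ≤ N := (one_le_pow₀ hlam1).trans hN
  have hN0 : 0 < N := by linarith
  have h100 : (100 : ℝ) ≤ L := by
    calc (100 : ℝ) ≤ 2 ^ 7 := by norm_num
      _ ≤ K ^ 7 := pow_le_pow_left₀ (by norm_num) hK 7
      _ ≤ K ^ c := pow_le_pow_right₀ hK1 (by omega)
      _ ≤ L := hKppL
  have hCL : C * K ^ (2 + 3 * t + u) ≤ L := by
    calc C * K ^ (2 + 3 * t + u) ≤ 2 ^ n₁ * K ^ (2 + 3 * t + u) := by gcongr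
      _ ≤ K ^ n₁ * K ^ (2 + 3 * t + u) := by gcongr
      _ = K ^ (n₁ + (2 + 3 * t + u)) := (pow_add K n₁ _).symm
      _ ≤ K ^ c := pow_le_pow_right₀ hK1 (by omega)
      _ ≤ L := hKppL
  set X : ℝ := (N / lam) ^ (1 / 3 : ℝ) with hX
  have hX0 : 0 < X := by positivity
  have hX3 : X ^ 3 = N / lam := by
    rw [hX, ← Real.rpow_natCast, ← Real.rpow_mul (by positivity)]
    norm_num
  -- the size of `X`
  have hXbig : 100 * K ^ (1 + t + u) * L ^ C0 * lam ≤ X := by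
    have h1 : (100 * K ^ (1 + t + u) * L ^ C0) ^ 3 ≤ lam := by
      calc (100 * K ^ (1 + t + u) * L ^ C0) ^ 3 ≤ (L * L ^ (1 + t + u) * L ^ C0) ^ 3 := by gcongr
        _ = L ^ (3 + 3 * (1 + t + u) + 3 * C0) := by ring
        _ ≤ L ^ c := pow_le_pow_right₀ hL1 (by omega)
        _ ≤ lam := hlam
    have h2 : (100 * K ^ (1 + t + u) * L ^ C0 * lam) ^ 3 ≤ X ^ 3 := by
      rw [hX3, mul_pow, le_div_iff₀ hlam0]
      calc (100 * K ^ (1 + t + u) * L ^ C0) ^ 3 * lam ^ 3 * lam ≤ lam * lam ^ 3 * lam := by gcongr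
        _ = lam ^ 5 := by ring
        _ ≤ N := hN
    exact le_of_pow_le_pow_left₀ (by norm_num) hX0.le h2
  set D : ℝ := X / K ^ t with hD
  have hD0 : 0 < D := by positivity
  have hsub : ∀ w ∈ W, w ∈ W₀ := fun w hw => hNW.subW hw
  have h1 := h K lam N P k Q W a b hK1 hlam0 hN0 hNW.base.good hNW.base.sub
    (fun w hw w' hw' hne => hNW.base.disj w (hsub w hw) w' (hsub w' hw') hne)
    (fun w hw => hNW.base.tch w (hsub w hw)) (fun w hw => hNW.base.bd w (hsub w hw)) Y D hD0 hYQ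
    (fun w hw x hx => by
      rw [hD, div_le_iff₀ (by positivity)]
      linarith [hdeg w hw x hx]) S hS
  -- the threshold
  have h2 : ∑ w ∈ W with (#Q : ℝ) ≤ L ^ C0 * lam ^ 2 * #{p ∈ Y w | Pol S p},
      (#{p ∈ Y w | Pol S p} : ℝ) ^ 3 ≤
      ∑ w ∈ W with 100 * K * N ≤ lam * D * #{p ∈ Y w | Pol S p},
      (#{p ∈ Y w | Pol S p} : ℝ) ^ 3 := by
    refine sum_le_sum_of_subset_of_nonneg ?_ (fun _ _ _ => by positivity)
    intro w hw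
    rw [mem_filter] at hw ⊢
    refine ⟨hw.1, ?_⟩
    set r : ℝ := (#{p ∈ Y w | Pol S p} : ℝ) with hr
    have hr0 : 0 ≤ r := Nat.cast_nonneg _
    have h3 : N ≤ K ^ u * (L ^ C0 * lam ^ 2 * r) :=
      hNQ.trans (mul_le_mul_of_nonneg_left hw.2 (by positivity))
    have h4 : 100 * K * N * K ^ t ≤ lam * X * r := by
      calc 100 * K * N * K ^ t ≤ 100 * K * (K ^ u * (L ^ C0 * lam ^ 2 * r)) * K ^ t := by gcongr
        _ = lam * (100 * K ^ (1 + t + u) * L ^ C0 * lam) * r := by ring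
        _ ≤ lam * X * r := by gcongr
    rw [hD]
    have h5 : lam * (X / K ^ t) * r = lam * X * r / K ^ t := by ring
    rw [h5, le_div_iff₀ (by positivity)]
    exact h4
  refine h2.trans ?_
  have h6 : D ^ 3 = (N / lam) / K ^ (3 * t) := by
    rw [hD, div_pow, hX3, ← pow_mul, mul_comm t 3]
  rw [h6] at h1
  set Sg : ℝ := ∑ w ∈ W with 100 * K * N ≤ lam * D * #{p ∈ Y w | Pol S p},
      (#{p ∈ Y w | Pol S p} : ℝ) ^ 3 with hSg
  set B : ℝ := (#{p ∈ Q | Pol S p} : ℝ) with hB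
  have h7 : Sg ≤ C * K ^ (2 + 3 * t) * (N / lam) * B ^ 2 := by
    have h8 : 0 < (N / lam) / K ^ (3 * t) := by positivity
    have h9 : (N / lam) / K ^ (3 * t) * Sg ≤
        (N / lam) / K ^ (3 * t) * (C * K ^ (2 + 3 * t) * (N / lam) * B ^ 2) := by
      refine h1.trans (le_of_eq ?_)
      field_simp
      ring
    exact le_of_mul_le_mul_left h9 h8
  calc Sg ≤ C * K ^ (2 + 3 * t) * (N / lam) * B ^ 2 := h7
    _ ≤ C * K ^ (2 + 3 * t) * (K ^ u * #Q / lam) * B ^ 2 := by gcongr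
    _ = (C * K ^ (2 + 3 * t + u)) * (#Q / lam) * B ^ 2 := by ring
    _ ≤ L * (#Q / lam) * B ^ 2 := by gcongr

end Vale.Agent.P065.UB.H155
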